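import Vale.Agent.P144Y.R.Mass
import Vale.Agent.P144T.A.Xj

/-!
The limit theorem for spinors with bounded masses; some of the disorders lie outside the domain.
-/

namespace Vale.Agent.P144Y.R

open Filter Topology Complex Metric Vale.Agent.P144
open Vale.Agent.P144.H170 hiding RelB RelB.relOn sum_sq_box H_bounds GLim resZ_of resO_of jA jB jC jD
open Vale.Agent.P144.H436 (nn)
open Vale.Agent.P144T (HB HData Reg self_cnr lap_hat sum_sq_box exists_H jA jB jC jD)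
open Vale.Agent.P144T.A (RelB H_bounds reg_nf ne_nf resO_of spr_jX)

theorem pm_norm (Ω : Dom) {z : ℂ} (hz : z ∈ Pm Ω.D) : ‖z‖ ≤ 1 / 2 :=
  hz.elim (fun h => by linarith [Ω.norm_lt h]) fun h => h.1

theorem pm_dia (Ω : Dom) {z : ℂ} (hz : z ∈ Pm Ω.D) : z ∈ Dia := ball_Dia (pm_norm Ω hz)

section

variable {D₀ : Set ℂ} {ι : Type} {l : Filter ι} {a : ι → ℝ} {N : ι → Finset Site}

/-- Near a point outside the closure no site is in `N`. -/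
theorem out_nf (ha : Tendsto a l (𝓝[>] 0)) (hN : Appr D₀ l a N) {z : ℂ} (hz : z ∉ closure D₀)
    (m : ℕ) : ∀ᶠ kx in nf l a z, ∀ y : Pt, |y.1 - kx.2.1| ≤ m → |y.2 - kx.2.2| ≤ m →
      y ∉ N kx.1 := by
  obtain ⟨r, hr, h⟩ := Metric.isOpen_iff.1 isClosed_closure.isOpen_compl z hz
  refine (ev_nf (P := fun k x => ∀ y : Pt, |y.1 - x.1| ≤ m → |y.2 - x.2| ≤ m → y ∉ N k)).2
    ⟨r / 4, by positivity, ?_⟩
  have ha0 : Tendsto (fun k => 2 * (a k * m)) l (𝓝 (2 * (0 * m))) :=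
    ((tendsto_nhds_of_tendsto_nhdsWithin ha).mul_const _).const_mul _
  rw [zero_mul, mul_zero] at ha0
  filter_upwards [hN.sub (r / 4) (by positivity), ha0.eventually_lt_const
    (by positivity : (0:ℝ) < r / 4), ha.eventually self_mem_nhdsWithin] with k h1 h2 h3 x hx y e1 e2
    hy
  obtain ⟨w, hw, h4⟩ := h1 y hy
  refine h (a := w) ?_ (subset_closure hw)
  rw [mem_ball, dist_eq_norm]
  have d1 := norm_sub_le_norm_sub_add_norm_sub w (pt (a k) y) z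
  have d2 := norm_sub_le_norm_sub_add_norm_sub (pt (a k) y) (pt (a k) x) z
  rw [norm_sub_rev w (pt _ _)] at d1
  linarith [pt_sub_le h3 e1 e2]

theorem out_seq (ha : Tendsto a l (𝓝[>] 0)) (hN : Appr D₀ l a N) {w : ι → Site} {c : ℂ}
    (hc : c ∉ closure D₀) (hw : Tendsto (fun k => pt (a k) (w k)) l (𝓝 c)) (m : ℕ) :
    ∀ᶠ k in l, ∀ y : Pt, |y.1 - (w k).1| ≤ m → |y.2 - (w k).2| ≤ m → y ∉ N k := by
  have h : Tendsto (fun k => (k, w k)) l (nf l a c) :=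
    tendsto_inf.2 ⟨tendsto_id.prodMk tendsto_top, tendsto_comap_iff.2 hw⟩
  exact h.eventually (out_nf ha hN hc m)

/-- A disorder is deep inside or far outside. -/
theorem in_out (ha : Tendsto a l (𝓝[>] 0)) (hN : Appr D₀ l a N) {w : ι → Site} {c : ℂ}
    (hc : c ∈ Pm D₀) (hw : Tendsto (fun k => pt (a k) (w k)) l (𝓝 c)) (m : ℕ) :
    ∀ᶠ k in l, (∀ y : Pt, |y.1 - (w k).1| ≤ m → |y.2 - (w k).2| ≤ m → y ∈ N k) ∨
      ∀ y : Pt, |y.1 - (w k).1| ≤ m → |y.2 - (w k).2| ≤ m → y ∉ N k :=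
  hc.elim (fun h => (hN.deep ha h hw m).mono fun _ => Or.inl)
    fun h => (out_seq ha hN h.2 hw m).mono fun _ => Or.inr

end

section

variable {ι κ κ' : Type} [Fintype κ] [Fintype κ']

/-- Everything we know about the limit of a sequence of spinors. -/
structure GLim (Ω : Dom) (l : Filter ι) (a : ι → ℝ) (r : κ → ι → Site) (v : κ' → ι → Site)
    (ζ : κ → ℂ) (ω : κ' → ℂ) (A B C E Hs Hf : ι → Pt → ℝ) (q : ℂ → ℂ) (h : ℂ → ℝ) : Prop where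
  diff : DifferentiableOn ℂ q Ω.D
  slim : SLim l a (Ω.D \ Mk ζ ω) r v (fun k x => (√(a k))⁻¹ * A k x)
    (fun k x => (√(a k))⁻¹ * B k x) (fun k x => (√(a k))⁻¹ * C k x)
    (fun k x => (√(a k))⁻¹ * E k x) q
  hs : CConv l a (Ω.D \ Mk ζ ω) Hs h
  hf : CConv l a (Ω.D \ Mk ζ ω) Hf h
  hd : ∀ z ∈ Ω.D \ Mk ζ ω, HD h (gq ζ ω q) z
  up : ∃ M, 0 ≤ M ∧ ∀ z ∈ Ω.D \ Mk ζ ω, h z ≤ M * ∑ p, gb z (ω p)
  bdc : Ω.Bd (F2 ζ ω q)
  resZ : ∀ p, ζ p ∈ Ω.D → (∀ p' ≠ p, ζ p' ≠ ζ p) → (∀ p', ω p' ≠ ζ p) →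
    ((⟨-1 / 2, 1 / 2⟩ : ℂ) * (q (ζ p) ^ 2 / PZ ζ ω p (ζ p))).im = 0 ∧
    0 ≤ ((⟨-1 / 2, 1 / 2⟩ : ℂ) * (q (ζ p) ^ 2 / PZ ζ ω p (ζ p))).re
  resO : ∀ p, (∀ p', ζ p' ≠ ω p) → (∀ p' ≠ p, ω p' ≠ ω p) →
    ((⟨-1 / 2, 1 / 2⟩ : ℂ) * (q (ω p) ^ 2 / PO ζ ω p (ω p))).im = 0 ∧
    ((⟨-1 / 2, 1 / 2⟩ : ℂ) * (q (ω p) ^ 2 / PO ζ ω p (ω p))).re ≤ 0

variable {r : κ → ι → Site} {v : κ' → ι → Site}
  {ζ : κ → ℂ} {ω : κ' → ℂ} {a : ι → ℝ} {N : ι → Finset Site} {A B C E Hs Hf : ι → Pt → ℝ}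

theorem resZ_of {W : Set ℂ} (hW : IsOpen W) {q : ℂ → ℂ}
    {h : ℂ → ℝ} {M : ℝ} (hM : 0 ≤ M)
    (hqd : DifferentiableOn ℂ q W) (hHD : ∀ z ∈ W \ Mk ζ ω, HD h (gq ζ ω q) z)
    (hup' : ∀ z ∈ W \ Mk ζ ω, h z ≤ M * ∑ p, gb z (ω p)) (p : κ) (hζ : ζ p ∈ W)
    (hp1 : ∀ p' ≠ p, ζ p' ≠ ζ p) (hp2 : ∀ p', ω p' ≠ ζ p) :
    ((⟨-1 / 2, 1 / 2⟩ : ℂ) * (q (ζ p) ^ 2 / PZ ζ ω p (ζ p))).im = 0 ∧
    0 ≤ ((⟨-1 / 2, 1 / 2⟩ : ℂ) * (q (ζ p) ^ 2 / PZ ζ ω p (ζ p))).re := by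
  classical
  obtain ⟨R, hR, hRD, hRM⟩ := exists_isolated (ζ := ζ) (ω := ω) hW hζ
  have hin : ∀ z ∈ ball (ζ p) R, z ∈ W := fun z hz => hRD (by
    rw [mem_ball] at hz; rw [mem_closedBall]; linarith)
  have hout : ∀ z ∈ ball (ζ p) R, z ≠ ζ p → z ∉ Mk ζ ω := by
    intro z hz hzp hzM
    have := hRM z hzM hzp
    rw [mem_ball, dist_eq_norm, norm_sub_rev] at hz
    linarith
  have key := U3_of (ζ := ζ) (ω := ω) (q := q) (h := h) (P := PZ ζ ω p) (c := ζ p) hR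
    (PP_eqZ p) (PZ_diff p) (fun z hz => ?_) (hqd.mono hin)
    (fun z hz hzp => hHD z ⟨hin z hz, hout z hz hzp⟩)
  · refine ⟨key.1, key.2.1 ⟨M * ∑ q : κ', (Real.log (16 / R ^ 2) + 1) / (4 * Real.log 2),
      fun z hz hzp => (hup' z ⟨hin z hz, hout z hz hzp⟩).trans ?_⟩⟩
    refine mul_le_mul_of_nonneg_left (Finset.sum_le_sum fun q _ => gb_le hR ?_) hM
    have h1 := hRM (ω q) (Or.inr ⟨q, rfl⟩) (hp2 q)
    rw [mem_ball, dist_eq_norm, norm_sub_rev] at hz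
    have h2 := norm_sub_le_norm_sub_add_norm_sub (ζ p) z (ω q)
    linarith
  · unfold PZ
    refine mul_ne_zero (Finset.prod_ne_zero_iff.2 fun p' hp' => sub_ne_zero.2 ?_)
      (Finset.prod_ne_zero_iff.2 fun p' _ => sub_ne_zero.2 ?_)
    · rintro rfl
      have h1 := hRM (ζ p') (Or.inl ⟨p', rfl⟩) (hp1 p' (Finset.mem_erase.1 hp').1)
      rw [mem_ball, dist_eq_norm, norm_sub_rev] at hz
      linarith
    · rintro rfl
      have h1 := hRM (ω p') (Or.inr ⟨p', rfl⟩) (hp2 p')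
      rw [mem_ball, dist_eq_norm, norm_sub_rev] at hz
      linarith

theorem diff_inter (s t : Set ℂ) : s \ (t ∩ s) = s \ t := by
  ext z; simp only [Set.mem_diff, Set.mem_inter_iff]; tauto

theorem hdata (Ω : Dom) {l : Ultrafilter ι} (ha : Tendsto a l (𝓝[>] 0))
    (hN : Appr Ω.D (l : Filter ι) a N)
    (hr : ∀ p, Tendsto (fun k => pt (a k) (r p k)) l (𝓝 (ζ p)))
    (hv : ∀ q, Tendsto (fun k => pt (a k) (v q k)) l (𝓝 (ω q)))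
    (hζ : ∀ p, ζ p ∈ Pm Ω.D) (hω : ∀ q, ω q ∈ Ω.D)
    (hS : ∀ᶠ k in l, AL.Spr (N k) (tauF fun p => r p k) (theF fun q => v q k)
      (A k) (B k) (C k) (E k))
    (hH : ∀ᶠ k in l, IsH (A k) (B k) (C k) (E k) (Hs k) (Hf k)) {M : ℝ}
    (hM1 : ∀ᶠ k in l, ∀ T : Finset Site, ∑ w ∈ T, |AL.lap (Hs k) w| ≤ M) {h : ℂ → ℝ}
    (hb : ∀ z ∈ Dia \ Mk ζ ω, ∃ M₁ M₂, ∀ᶠ kx in nf l a z, Hs kx.1 kx.2 ≤ M₁ ∧ -Hf kx.1 kx.2 ≤ M₂)
    (chs : CConv l a (Ω.D \ Mk ζ ω) Hs h) (chf : CConv l a (Ω.D \ Mk ζ ω) Hf h) :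
    HData Ω.D (l : Filter ι) a N Hs Hf (Mk ζ ω ∩ Ω.D) h := by
  have hMkD : ∀ z ∈ Mk ζ ω, z ∉ Ω.D → z ∉ closure Ω.D ∧ ∀ q, z ≠ ω q := by
    rintro z (⟨p, rfl⟩ | ⟨p, rfl⟩) hz
    · exact ⟨((hζ p).resolve_left hz).2, fun q e => hz (e ▸ hω q)⟩
    · exact absurd (hω p) hz
  obtain ⟨g, -, hg⟩ := hN.holes ha Ω.op Ω.small Ω.fat
  refine ⟨inferInstance, ha, hN, ((Mk_finite ζ ω).inter_of_left _).isCompact,
    Set.inter_subset_right, ?_, fun z hz => ?_, fun z hz => ?_, by rwa [diff_inter],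
    by rwa [diff_inter]⟩
  · filter_upwards [hS, hH] with k k1 k2
    exact HB.of_spr k1 k2
  · by_cases hm : z ∈ Mk ζ ω
    swap
    · exact reg_nf hr hv hS hH hm
    obtain ⟨b1, b2⟩ := hMkD z hm fun b => hz.2 ⟨hm, b⟩
    have e2 : ∀ᶠ kx in nf l a z, ∀ p, kx.2 ≠ v p kx.1 :=
      eventually_all.2 fun p => ne_nf (hv p) (b2 p)
    filter_upwards [e2, out_nf ha hN b1 0, ev_nf_of (l := l) (a := a) (z := z) (hS.and hH)]
      with kx k1 k2 k3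
    refine ⟨(sub_nonneg.2 ((HB.of_spr k3.1 k3.2).le_hat _)).trans
      (lap_hat k3.1 k3.2 (theF_step k1)), fun hin => ?_⟩
    exact absurd (hin _ (self_cnr _)) (k2 _ (by simp) (by simp))
  · by_cases hm : z ∈ Mk ζ ω
    swap
    · obtain ⟨M₁, M₂, b⟩ := hb z ⟨hz.1, hm⟩
      exact ⟨max M₁ M₂, b.mono fun kx k =>
        ⟨k.1.trans (le_max_left _ _), k.2.trans (le_max_right _ _)⟩⟩
    obtain ⟨b1, -⟩ := hMkD z hm fun b => hz.2 ⟨hm, b⟩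
    refine ⟨g * M, ?_⟩
    filter_upwards [out_nf ha hN b1 0,
      ev_nf_of (l := l) (a := a) (z := z) ((hS.and hH).and (hM1.and hg))] with kx k2 k3
    have hb := HB.of_spr k3.1.1 k3.1.2
    have o := k2 kx.2 (by simp) (by simp)
    have b := k3.2.2 _ _ _ _ hb (fun _ _ => rfl) k3.2.1 _ o
    rw [hb.zero _ _ (self_cnr _) o]
    exact ⟨(le_abs_self _).trans b, (neg_le_abs _).trans b⟩

/-- **The limit theorem.** -/
theorem glim_exists (Ω : Dom) {l : Ultrafilter ι} (ha : Tendsto a l (𝓝[>] 0))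
    (hN : Appr Ω.D (l : Filter ι) a N)
    (hr : ∀ p, Tendsto (fun k => pt (a k) (r p k)) l (𝓝 (ζ p)))
    (hv : ∀ q, Tendsto (fun k => pt (a k) (v q k)) l (𝓝 (ω q)))
    (hζ : ∀ p, ζ p ∈ Pm Ω.D) (hω : ∀ q, ω q ∈ Ω.D)
    (hS : ∀ᶠ k in l, AL.Spr (N k) (tauF fun p => r p k) (theF fun q => v q k)
      (A k) (B k) (C k) (E k))
    (hH : ∀ᶠ k in l, IsH (A k) (B k) (C k) (E k) (Hs k) (Hf k)) {M : ℝ}
    (hM1 : ∀ᶠ k in l, ∀ T : Finset Site, ∑ w ∈ T, |AL.lap (Hs k) w| ≤ M)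
    (hM2 : ∀ᶠ k in l, ∀ T : Finset Site, ∑ w ∈ T, |AL.lap (Hf k) w| ≤ M) :
    ∃ q h, GLim Ω (l : Filter ι) a r v ζ ω A B C E Hs Hf q h := by
  have hM : 0 ≤ M := by
    obtain ⟨k, hk⟩ := hM1.exists
    simpa using hk ∅
  have ha0 : ∀ᶠ k in l, 0 < a k := ha.eventually self_mem_nhdsWithin
  have hn := H436.nn_lim ha
  have dd : ∀ z ∈ Ω.D \ Mk ζ ω, z ∈ Dia \ Mk ζ ω := fun z hz => ⟨Ω.dia hz.1, hz.2⟩
  -- relations
  have hrel : RelB l a N Set.univ r v (fun k x => (√(a k))⁻¹ * A k x)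
      (fun k x => (√(a k))⁻¹ * B k x) (fun k x => (√(a k))⁻¹ * C k x)
      (fun k x => (√(a k))⁻¹ * E k x) := by
    intro z _
    filter_upwards [ev_nf_of (l := l) (a := a) (z := z) hS] with kx h
    exact (SRel.of_spr h kx.2.1 kx.2.2).smul _
  -- ℓ² bounds
  have hbox : ∀ᶠ k in l, ∀ c n, ∑ x ∈ bx c n, (A k x ^ 2 + B k x ^ 2 + C k x ^ 2 + E k x ^ 2) ≤
      1152 * M * (n + 2) := by
    filter_upwards [hS, hH, hM1, hM2] with k k1 k2 k3 k4 c n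
    exact sum_sq_box k1 k2 k3 k4 c n
  have l2 : ∀ X : ι → Pt → ℝ, (∀ k x, X k x ^ 2 ≤ A k x ^ 2 + B k x ^ 2 + C k x ^ 2 + E k x ^ 2) →
      ∀ z : ℂ, ∀ ρ > 0, L2ball l a z ρ (8 * (1152 * M) * ρ) (fun k x => (√(a k))⁻¹ * X k x) := by
    intro X hX z ρ hρ
    refine l2_of_box ha (by positivity) ?_ z hρ
    filter_upwards [hbox] with k hk c n
    exact (Finset.sum_le_sum fun x _ => hX k x).trans (hk c n)
  have l2A := l2 A fun k x => by nlinarith [sq_nonneg (B k x), sq_nonneg (C k x), sq_nonneg (E k x)]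
  have l2B := l2 B fun k x => by nlinarith [sq_nonneg (A k x), sq_nonneg (C k x), sq_nonneg (E k x)]
  have l2C := l2 C fun k x => by nlinarith [sq_nonneg (A k x), sq_nonneg (B k x), sq_nonneg (E k x)]
  have l2E := l2 E fun k x => by nlinarith [sq_nonneg (A k x), sq_nonneg (B k x), sq_nonneg (C k x)]
  have lsq : ∀ X : ι → Pt → ℝ, (∀ z : ℂ, ∀ ρ > 0, L2ball l a z ρ (8 * (1152 * M) * ρ) X) →
      ∀ z ∈ Ω.D, ∀ ρ > 0, ρ ≤ 1 → closedBall z ρ ⊆ Ω.D →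
        L2ball l a z ρ (8 * (1152 * M) * √ρ) X := by
    intro X hX z _ ρ hρ hρ1 _
    refine (hX z ρ hρ).mono (mul_le_mul_of_nonneg_left ?_ (by positivity))
    exact Real.le_sqrt_of_sq_le (by nlinarith)
  have hrelOn : RelOn l a (Ω.D \ Mk ζ ω) r v (fun k x => (√(a k))⁻¹ * A k x)
      (fun k x => (√(a k))⁻¹ * B k x) (fun k x => (√(a k))⁻¹ * C k x)
      (fun k x => (√(a k))⁻¹ * E k x) := fun z hz =>
    hrel.relOn ha hN z ⟨Set.mem_univ z, hz.1⟩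
  obtain ⟨q, hqd, hslim⟩ := slim_ext ha Ω.op hr hv hrelOn (lsq _ l2B) (lsq _ l2C)
  -- bounds of H
  obtain ⟨g, g0, hg⟩ := hN.holes ha Ω.op Ω.small Ω.fat
  have hbd : ∀ᶠ k in l, ∀ x, Hs k x ≤ M * ∑ q, H436.green (dia (nn (a k))) (v q k) x ∧
      -Hf k x ≤ g * M + M * ∑ p, H436.green (dia (nn (a k))) (r p k) x ∧ Hf k x ≤ Hs k x := by
    filter_upwards [hS, hH, hM1, hM2, hN.big ha Ω.small 1, hg] with k k1 k2 k3 k4 k5 k6 x
    exact H_bounds (fun y hy => (neg_le_abs _).trans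
      (k6 _ _ _ _ (HB.of_spr k1 k2) (fun _ _ => rfl) k3 y hy)) k5 k1 k2 k3 k4 x
  have hgv : ∀ z ∈ Dia \ Mk ζ ω, ∀ᶠ kx in nf l a z, M * ∑ q, H436.green (dia (nn (a kx.1))) (v q kx.1)
      kx.2 ≤ M * ∑ q, gb z (ω q) := by
    intro z hz
    have h1 : ∀ᶠ kx in nf l a z, ∀ q, H436.green (dia (nn (a kx.1))) (v q kx.1) kx.2 ≤ gb z (ω q) := by
      rw [eventually_all]
      intro q
      exact green_near ha hn (hv q) (mem_dia_ev ha hn (Ω.dia (hω q)) (hv q)) hz.1 ((notMem_Mk.1 hz.2).2 q)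
    filter_upwards [h1] with kx h2
    exact mul_le_mul_of_nonneg_left (Finset.sum_le_sum fun q _ => h2 q) hM
  have hgr : ∀ z ∈ Dia \ Mk ζ ω, ∀ᶠ kx in nf l a z, M * ∑ p, H436.green (dia (nn (a kx.1))) (r p kx.1)
      kx.2 ≤ M * ∑ p, gb z (ζ p) := by
    intro z hz
    have h1 : ∀ᶠ kx in nf l a z, ∀ q, H436.green (dia (nn (a kx.1))) (r q kx.1) kx.2 ≤ gb z (ζ q) := by
      rw [eventually_all]
      intro q
      exact green_near ha hn (hr q) (mem_dia_ev ha hn (pm_dia Ω (hζ q)) (hr q)) hz.1 ((notMem_Mk.1 hz.2).1 q)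
    filter_upwards [h1] with kx h2
    exact mul_le_mul_of_nonneg_left (Finset.sum_le_sum fun q _ => h2 q) hM
  have hup : ∀ z ∈ Dia \ Mk ζ ω, ∀ᶠ kx in nf l a z, Hs kx.1 kx.2 ≤ M * ∑ q, gb z (ω q) := by
    intro z hz
    filter_upwards [hgv z hz, ev_nf_of (l := l) (a := a) (z := z) hbd] with kx k1 k2
    exact (k2 kx.2).1.trans k1
  have hlo : ∀ z ∈ Dia \ Mk ζ ω, ∀ᶠ kx in nf l a z,
      -Hf kx.1 kx.2 ≤ g * M + M * ∑ q, gb z (ζ q) := by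
    intro z hz
    filter_upwards [hgr z hz, ev_nf_of (l := l) (a := a) (z := z) hbd] with kx k1 k2
    exact (k2 kx.2).2.1.trans (add_le_add_right k1 _)
  -- the limit h
  have hHon : HOn l a (Ω.D \ Mk ζ ω) (fun k x => (√(a k))⁻¹ * A k x)
      (fun k x => (√(a k))⁻¹ * B k x) (fun k x => (√(a k))⁻¹ * C k x)
      (fun k x => (√(a k))⁻¹ * E k x) Hs Hf := by
    intro z _
    filter_upwards [ev_nf_of (l := l) (a := a) (z := z) hH, apos_nf ha z] with kx h h0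
    have e : ∀ y : ℝ, a kx.1 * ((√(a kx.1))⁻¹ * y) ^ 2 = y ^ 2 := by
      intro y
      rw [mul_pow, inv_pow, Real.sq_sqrt h0.le]
      field_simp
    obtain ⟨k, i, j⟩ := kx
    simp only [e, Prod.mk_add_mk, add_zero]
    exact ⟨h.a i j, h.b i j, h.c i j, h.d i j⟩
  have hbb : ∀ z ∈ Ω.D \ Mk ζ ω, ∃ K, ∀ᶠ k in l, |Hs k (fl (a k) z)| ≤ K := by
    intro z hz
    have h1 := (hup z (dd z hz)).and ((hlo z (dd z hz)).and (ev_nf_of (l := l) (a := a) (z := z) hbd))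
    obtain ⟨ρ, hρ, h2⟩ := (ev_nf (P := fun k x => Hs k x ≤ M * ∑ q, gb z (ω q) ∧
      -Hf k x ≤ g * M + M * ∑ q, gb z (ζ q) ∧ ∀ x,
      Hs k x ≤ M * ∑ q, H436.green (dia (nn (a k))) (v q k) x ∧
      -Hf k x ≤ g * M + M * ∑ p, H436.green (dia (nn (a k))) (r p k) x ∧ Hf k x ≤ Hs k x)).1 h1
    have ha1 : ∀ᶠ k in l, a k < ρ / 2 :=
      (ha.mono_right nhdsWithin_le_nhds).eventually (gt_mem_nhds (by positivity))
    refine ⟨|M * ∑ q, gb z (ω q)| + |g * M + M * ∑ q, gb z (ζ q)|, ?_⟩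
    filter_upwards [h2, ha0, ha1] with k k1 k2 k3
    obtain ⟨k4, k5, k6⟩ := k1 (fl (a k) z) ((pt_fl_norm k2 z).trans (by linarith))
    have k7 := (k6 (fl (a k) z)).2.2
    rw [abs_le]
    constructor
    · linarith [le_abs_self (g * M + M * ∑ q, gb z (ζ q)), abs_nonneg (M * ∑ q, gb z (ω q))]
    · linarith [le_abs_self (M * ∑ q, gb z (ω q)), abs_nonneg (g * M + M * ∑ q, gb z (ζ q))]
  obtain ⟨h, chs, chf, hder⟩ := hlim_exists ha (Ω.op.sdiff (Mk_closed ζ ω)) hr hv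
    (fun z hz => hz.2) hslim hHon hbb
  have hHD : ∀ z ∈ Ω.D \ Mk ζ ω, HD h (gq ζ ω q) z := fun z hz => (hder z hz).hasFDerivAt
  have chs' := cconv_iff.1 chs
  have chf' := cconv_iff.1 chf
  have hup' : ∀ z ∈ Ω.D \ Mk ζ ω, h z ≤ M * ∑ p, gb z (ω p) := by
    intro z hz
    have := nf_neBot (l := (l : Filter ι)) ha z
    exact le_of_tendsto (chs' z hz) (hup z (dd z hz))
  have hlo' : ∀ z ∈ Ω.D \ Mk ζ ω, -h z ≤ g * M + M * ∑ p, gb z (ζ p) := by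
    intro z hz
    have := nf_neBot (l := (l : Filter ι)) ha z
    exact le_of_tendsto (chf' z hz).neg (hlo z (dd z hz))
  have hD := hdata Ω ha hN hr hv hζ hω hS hH hM1 (fun z hz => ⟨_, _, (hup z hz).and (hlo z hz)⟩)
    chs chf
  have eK := diff_inter Ω.D (Mk ζ ω)
  refine ⟨q, h, ⟨hqd, hslim, chs, chf, hHD, ⟨M, hM, hup'⟩,
    Ω.bd hD _ ?_ (by rw [eK]; exact hHD), resZ_of Ω.op hM hqd hHD hup',
    resO_of (h := fun z => h z + g * M) Ω.op hω hM hqd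
      (fun z hz => HasFDerivAt.add_const _ (hHD z hz)) fun z hz => by linarith [hlo' z hz]⟩⟩
  rw [eK]
  exact fun z hz => (((hqd.differentiableAt (Ω.op.mem_nhds hz.1)).pow 2).div (PP_diff z)
    (PP_ne hz.2)).differentiableWithinAt

end

/-- The exceptional points of the spinor with the source at `(v, v)`. -/
theorem Xj_exg {Λ : Finset Site} {R : Multiset Site} {v : Site} (hR : R.Nodup)
    (hv : ∀ x : Site, |x.1 - v.1| ≤ 1 → |x.2 - v.2| ≤ 1 → x ∈ Λ)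
    (hr : ∀ r ∈ R, (∀ x : Site, |x.1 - r.1| ≤ 2 → |x.2 - r.2| ≤ 2 → x ∈ Λ) ∨
      ∀ x : Site, |x.1 - r.1| ≤ 2 → |x.2 - r.2| ≤ 2 → x ∉ Λ)
    (hc : ∀ r ∈ R, v ∉ AL.cnr r) :
    Exg Λ Λ (AL.tauR R) (AL.theA {v}) {v} (R.toFinset ∩ Λ) (R.toFinset ∩ Λ) := by
  have m : ∀ x, x ∈ R.toFinset ∩ Λ ↔ x ∈ R ∧ x ∈ Λ := fun x => by simp
  refine ⟨fun i j hij => AL.theA_step (by simpa using hij),
    fun i j hij ⟨u, u1, u2⟩ => AL.tauR_step fun h => ?_,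
    fun w hw => ?_, fun w hw => ?_, subset_rfl, fun f hf => ?_, fun f hf w hw hw' => ?_⟩
  · rcases hr _ h with b | b
    · exact hij ((m _).2 ⟨h, b _ (by simp) (by simp)⟩)
    · rw [AL.mem_cnr] at u1
      refine b u ?_ ?_ u2 <;> rcases u1 with rfl | rfl | rfl | rfl <;> simp
  · rw [Finset.mem_singleton] at hw; subst hw; exact hv
  · obtain ⟨b1, b2⟩ := (m _).1 hw
    exact (hr w b1).resolve_right fun b => b w (by simp) (by simp) b2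
  · exact AL.tauR_branch hR (i := f.1) (j := f.2) ((m _).1 hf).1
  · rw [Finset.mem_singleton] at hw'; subst hw'; exact hc f ((m _).1 hf).1 hw

/-- The masses of the `H`-function of the spinor with the source at `(v, v)`. -/
theorem Xj_mass {Λ : Finset Site} {R : Multiset Site} {v : Site} (hR : R.Nodup)
    (hv : ∀ x : Site, |x.1 - v.1| ≤ 1 → |x.2 - v.2| ≤ 1 → x ∈ Λ)
    (hr : ∀ r ∈ R, (∀ x : Site, |x.1 - r.1| ≤ 2 → |x.2 - r.2| ≤ 2 → x ∈ Λ) ∨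
      ∀ x : Site, |x.1 - r.1| ≤ 2 → |x.2 - r.2| ≤ 2 → x ∉ Λ)
    (hc : ∀ r ∈ R, v ∉ AL.cnr r) :
    ∃ Hs Hf : Site → ℝ, IsH (AL.xA Λ R {v} (AL.zj Λ R v))
      (AL.xB Λ R {v} (AL.zj Λ R v)) (AL.xC Λ R {v} (AL.zj Λ R v))
      (AL.xD Λ R {v} (AL.zj Λ R v)) Hs Hf ∧
      ∀ T : Finset Site, ∑ w ∈ T, |AL.lap Hs w| + ∑ w ∈ T, |AL.lap Hf w| ≤ 37730 := by
  classical
  have hvd : v ∈ Λ := hv v (by simp) (by simp)
  have h := AL.spr_QQ (Λ := Λ) R (A := {v}) (by simpa using hvd) (AL.zj Λ R v)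
  obtain ⟨Hs, Hf, hH⟩ := exists_H h
  have hE := Xj_exg hR hv hr hc
  refine ⟨Hs, Hf, hH, fun T => ?_⟩
  obtain ⟨h1, h2⟩ := mass h hH hE T
  rw [Finset.sum_singleton] at h1 h2
  rw [Finset.sdiff_self, Finset.sum_empty] at h2
  have h3 := AL.sqS_Xj Λ R v hvd
  linarith

/-- **The limit of the spinor with one inserted spin.** -/
theorem xj (Ω : Dom) {ι κ : Type} [Fintype κ] {l : Ultrafilter ι} {a : ι → ℝ}
    {N : ι → Finset Site} {r : κ → ι → Site} {v : ι → Site} {ζ : κ → ℂ} {ω : ℂ}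
    (ha : Tendsto a l (𝓝[>] 0)) (hN : Appr Ω.D (l : Filter ι) a N)
    (hr : ∀ p, Tendsto (fun k => pt (a k) (r p k)) l (𝓝 (ζ p)))
    (hv : Tendsto (fun k => pt (a k) (v k)) l (𝓝 ω)) (hζ : ∀ p, ζ p ∈ Pm Ω.D) (hω : ω ∈ Ω.D)
    (hinj : ∀ᶠ k in l, Function.Injective fun p => r p k)
    (hc : ∀ᶠ k in l, ∀ p, v k ∉ AL.cnr (r p k)) :
    ∃ (Hs Hf : ι → Pt → ℝ) (q : ℂ → ℂ) (h : ℂ → ℝ),
      (∀ᶠ k in l, IsH (jA (N k) (fun p => r p k) (v k))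
        (jB (N k) (fun p => r p k) (v k)) (jC (N k) (fun p => r p k) (v k))
        (jD (N k) (fun p => r p k) (v k)) (Hs k) (Hf k)) ∧
      GLim Ω (l : Filter ι) a r (fun _ : Unit => v) ζ (fun _ => ω)
        (fun k => jA (N k) (fun p => r p k) (v k)) (fun k => jB (N k) (fun p => r p k) (v k))
        (fun k => jC (N k) (fun p => r p k) (v k)) (fun k => jD (N k) (fun p => r p k) (v k))
        Hs Hf q h := by
  have d1 := hN.deep ha hω hv 1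
  have d2 := eventually_all.2 fun p => in_out ha hN (hζ p) (hr p) 2
  have key : ∀ᶠ k in l, ∃ Hs Hf : Site → ℝ, IsH (jA (N k) (fun p => r p k) (v k))
      (jB (N k) (fun p => r p k) (v k)) (jC (N k) (fun p => r p k) (v k))
      (jD (N k) (fun p => r p k) (v k)) Hs Hf ∧
      ∀ T : Finset Site, ∑ w ∈ T, |AL.lap Hs w| + ∑ w ∈ T, |AL.lap Hf w| ≤ 37730 := by
    filter_upwards [d1, d2, hinj, hc] with k k1 k2 k3 k4
    obtain ⟨Hs, Hf, h1, h2⟩ := Xj_mass (R := rM fun p => r p k) (v := v k) (rM_nodup k3) k1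
      (fun x hx => by
        obtain ⟨p, rfl⟩ := mem_rM.1 hx
        exact k2 p)
      (fun x hx => by
        obtain ⟨p, rfl⟩ := mem_rM.1 hx
        exact k4 p)
    exact ⟨Hs, Hf, h1, h2⟩
  obtain ⟨Hs, hHs⟩ := key.choice
  obtain ⟨Hf, hHf⟩ := hHs.choice
  have hH := hHf.mono fun k h => h.1
  have hS : ∀ᶠ k in l, AL.Spr (N k) (tauF fun p => r p k) (theF fun _ : Unit => v k)
      (jA (N k) (fun p => r p k) (v k)) (jB (N k) (fun p => r p k) (v k))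
      (jC (N k) (fun p => r p k) (v k)) (jD (N k) (fun p => r p k) (v k)) :=
    (hN.mem ha hω hv).mono fun k k1 => spr_jX k1
  have hM1 : ∀ᶠ k in l, ∀ T : Finset Site, ∑ w ∈ T, |AL.lap (Hs k) w| ≤ 37730 := by
    filter_upwards [hHf] with k h T
    have h1 := h.2 T
    have h2 : 0 ≤ ∑ w ∈ T, |AL.lap (Hf k) w| := Finset.sum_nonneg fun _ _ => abs_nonneg _
    linarith
  have hM2 : ∀ᶠ k in l, ∀ T : Finset Site, ∑ w ∈ T, |AL.lap (Hf k) w| ≤ 37730 := by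
    filter_upwards [hHf] with k h T
    have h1 := h.2 T
    have h2 : 0 ≤ ∑ w ∈ T, |AL.lap (Hs k) w| := Finset.sum_nonneg fun _ _ => abs_nonneg _
    linarith
  obtain ⟨q, h, hG⟩ := glim_exists Ω (v := fun _ : Unit => v) (ω := fun _ : Unit => ω) ha hN hr
    (fun _ => hv) hζ (fun _ => hω) hS hH hM1 hM2
  exact ⟨Hs, Hf, q, h, hH, hG⟩

end Vale.Agent.P144Y.R
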