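import Vale.Agent.P144Y.Defs

/-!
The masses of the `H`-function in a finite set, with disorders outside the set.
-/

namespace Vale.Agent.P144Y.R

open Finset Vale.Agent.P144
open Vale.Agent.P144.AL hiding IsH Cn
open Vale.Agent.P144T hiding lap_P lapf_R sqF_G lapf_np hat_Q mass

section

variable {Λ : Finset Site} {τ θ A B C E Hs Hf : Site → ℝ} {Q R G : Finset Site}
  (h : AL.Spr Λ τ θ A B C E) (hH : IsH A B C E Hs Hf) (hE : Exg Λ Λ τ θ Q R G)

include h hH hE

theorem lap_P {v : Site} (hv : v ∈ Q) : -sqS A B C E v ≤ lap Hs v := by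
  obtain ⟨i, j⟩ := v
  have h0 := sqS_nonneg A B C E (i, j)
  have mem := hE.inP _ hv
  have key := lap_int_lower h hH (mem (i, j) (by simp) (by simp))
    (mem (i, j + 1) (by simp) (by simp)) (mem (i, j - 1) (by simp) (by simp))
    (mem (i + 1, j) (by simp) (by simp)) (mem (i - 1, j) (by simp) (by simp))
  have e : sqS A B C E (i, j) = A (i, j) ^ 2 + B (i - 1, j) ^ 2 + C (i, j - 1) ^ 2 +
    E (i - 1, j - 1) ^ 2 := rfl
  rw [← e] at key
  have h2 : √2 ≤ 3 / 2 := by
    rw [Real.sqrt_le_left (by norm_num)]; norm_num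
  nlinarith

theorem lapf_R {f : Site} (hf : f ∈ R) : lap Hf f ≤ sqF A B C E f := by
  obtain ⟨i, j⟩ := f
  have h0 := sqF_nonneg A B C E (i, j)
  have mem := hE.inR _ hf
  have key := lapf_upper h hH (mem (i, j) (by simp) (by simp))
    (mem (i + 1, j) (by simp) (by simp)) (mem (i, j + 1) (by simp) (by simp))
    (mem (i + 1, j + 1) (by simp) (by simp))
  refine key.trans ?_
  unfold sqF at h0 ⊢
  have h2 : √2 ≤ 3 / 2 := by
    rw [Real.sqrt_le_left (by norm_num)]; norm_num
  nlinarith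

/-- The values at a disorder. -/
theorem sqF_G {f : Site} (hf : f ∈ G) : sqF A B C E f ≤ 3 * ∑ v ∈ cnr f, |lap Hs v| := by
  have hgood := hE.good f hf
  have hneg := hE.neg f hf
  have hin := hE.inR _ (hE.sub hf)
  obtain ⟨i, j⟩ := f
  simp only at hin hneg
  have np : ∀ x y : ℤ, ((x, y) : Site) ∈ cnr (i, j) → θ (x - 1, y) = θ (x - 1, y - 1) :=
    fun x y hxy => hE.θc x y (hgood _ hxy)
  have t1 := np i j (by simp [mem_cnr])
  have t2 := np (i + 1) j (by simp [mem_cnr])
  have t3 := np i (j + 1) (by simp [mem_cnr])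
  have t4 := np (i + 1) (j + 1) (by simp [mem_cnr])
  rw [add_sub_cancel_right] at t2 t3
  rw [add_sub_cancel_right, add_sub_cancel_right] at t4
  have key := branch_face h hH (i := i) (j := j) (fun x y h1 h2 h3 h4 =>
    hin (x, y) (by rw [abs_le]; simp only; lia) (by rw [abs_le]; simp only; lia)) t1 t2 t3 t4 hneg
  have hs : lap Hs (i, j) + lap Hs (i + 1, j) + lap Hs (i, j + 1) + lap Hs (i + 1, j + 1) ≤
      ∑ v ∈ cnr (i, j), |lap Hs v| := by
    rw [sum_cnr]
    have := le_abs_self (lap Hs (i, j))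
    have := le_abs_self (lap Hs (i + 1, j))
    have := le_abs_self (lap Hs (i, j + 1))
    have := le_abs_self (lap Hs (i + 1, j + 1))
    simp only
    linarith
  have h0 := sqF_nonneg A B C E (i, j)
  have h2 : √2 ≤ 17 / 12 := by
    rw [Real.sqrt_le_left (by norm_num)]; norm_num
  nlinarith

theorem lapf_np {f : Site} (hf : f ∉ R) (hin : ∀ u ∈ cnr f, u ∈ Λ) : lap Hf f ≤ 0 := by
  obtain ⟨i, j⟩ := f
  exact lapf_nonpos h hH (hin (i, j) (by simp [mem_cnr])) (hin (i + 1, j) (by simp [mem_cnr]))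
    (hin (i, j + 1) (by simp [mem_cnr])) (hin (i + 1, j + 1) (by simp [mem_cnr])) 
    (hE.τc i j hf ⟨(i, j), self_cnr _, hin _ (self_cnr _)⟩)

theorem hat_Q {x : Site} (hx : x ∈ Q) : -sqS A B C E x ≤ lap (P144T.hat Λ Hs) x := by
  have hb := HB.of_spr h hH
  have h1 := lap_P h hH hE hx
  have h2 := hb.le_hat (x.1 + 1, x.2)
  have h3 := hb.le_hat (x.1 - 1, x.2)
  have h4 := hb.le_hat (x.1, x.2 + 1)
  have h5 := hb.le_hat (x.1, x.2 - 1)
  unfold lap at h1 ⊢
  rw [hat_in (hE.inP x hx x (by simp) (by simp))]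
  linarith

/-- The total masses. -/
theorem mass (T : Finset Site) : ∑ v ∈ T, |lap Hs v| ≤ 18 * ∑ p ∈ Q, sqS A B C E p ∧
    ∑ f ∈ T, |lap Hf f| ≤ 752 * ∑ p ∈ Q, sqS A B C E p + 2 * ∑ f ∈ R \ G, sqF A B C E f := by
  classical
  have hb := HB.of_spr h hH
  obtain ⟨M, hM, s1, s2, s3⟩ := hb.supp ∅
  set w : Site → ℝ := fun x => P144T.hat Λ Hs x - Hs x with hw
  have w0 : ∀ x, 0 ≤ w x := fun x => sub_nonneg.2 (hb.le_hat x)
  have w1 : ∀ x ∉ Q, w x ≤ lap (P144T.hat Λ Hs) x := fun x hx => lap_hat h hH (hE.θc x.1 x.2 hx)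
  have w3 : ∀ x ∉ box (M + 1), w x = 0 := fun x hx => by
    have : x ∉ box M := fun h' => hx (H436.box_mono (by lia) h')
    simp only [hw]
    rw [s3 x this, s1 x this, sub_zero]
  have k1 : ∑ x ∈ box (M + 1), w x ≤ 2 * ∑ p ∈ Q, sqS A B C E p := by
    refine le_trans (sum_le_sum fun x _ => ?_) ((mass_any (P := Q) s3
      (fun x hx => (w0 x).trans (w1 x hx)) (box (M + 1))).trans ?_)
    · by_cases hx : x ∈ Q
      · simp only [hw]
        rw [hat_in (hE.inP x hx x (by simp) (by simp)), sub_self]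
        exact abs_nonneg _
      · exact (w1 x hx).trans (le_abs_self _)
    · refine mul_le_mul_of_nonneg_left (sum_le_sum fun p hp => ?_) (by norm_num)
      exact max_le (sqS_nonneg _ _ _ _ _) (by linarith [hat_Q h hH hE hp])
  have ite_le : ∀ (S U : Finset Site) (g : Site → ℝ), (∀ x, 0 ≤ g x) →
      ∑ x ∈ S, (if x ∈ U then g x else 0) ≤ ∑ x ∈ U, g x := fun S U g hg => by
    rw [← sum_filter]
    exact sum_le_sum_of_subset_of_nonneg (fun f hf => (mem_filter.1 hf).2) fun _ _ _ => hg _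
  have k2 : ∀ T : Finset Site, ∑ v ∈ T, |lap Hs v| ≤ 18 * ∑ p ∈ Q, sqS A B C E p := by
    intro T
    refine (mass_any (P := box (M + 1)) s1 (fun x hx => (supp_lap s1 x hx).ge) T).trans ?_
    have a1 : ∀ x ∈ box (M + 1), max 0 (-lap Hs x) ≤ (w (x.1 + 1, x.2) + w (x.1 - 1, x.2) +
        w (x.1, x.2 + 1) + w (x.1, x.2 - 1)) + (if x ∈ Q then sqS A B C E x else 0) := by
      intro x _
      have b2 := w0 x
      have b3 := w0 (x.1 + 1, x.2)
      have b4 := w0 (x.1 - 1, x.2)
      have b5 := w0 (x.1, x.2 + 1)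
      have b6 := w0 (x.1, x.2 - 1)
      have b7 := sqS_nonneg A B C E x
      split_ifs with hx
      · exact max_le (by linarith) (by linarith [lap_P h hH hE hx])
      · have b1 := w1 x hx
        refine max_le (by linarith) ?_
        simp only [hw] at b1 b2 ⊢
        unfold lap at b1 ⊢
        linarith
    have a2 := sum_le_sum a1
    rw [sum_add_distrib] at a2
    linarith [nbr_sum w0 w3 (box (M + 1)), ite_le (box (M + 1)) Q _ (sqS_nonneg A B C E)]
  refine ⟨k2 T, ?_⟩
  have e : ∀ x, lap (fun y => -Hf y) x = -lap Hf x := fun x => by unfold lap; ring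
  have s2' : ∀ x ∉ box M, -Hf x = 0 := fun x hx => by rw [s2 x hx, neg_zero]
  have key := mass_any (u := fun y => -Hf y) (P := box (M + 1)) s2'
    (fun x hx => (supp_lap s2' x hx).ge) T
  simp only [e, abs_neg, neg_neg] at key
  set u : Site → ℝ := fun v => 3 * |lap Hs v| + 20 * w v with hu
  have u0 : ∀ v, 0 ≤ u v := fun v => by
    simp only [hu]
    linarith [abs_nonneg (lap Hs v), w0 v]
  have a1 : ∀ f ∈ box (M + 1), max 0 (lap Hf f) ≤ ∑ v ∈ cnr f, u v +
      (if f ∈ R \ G then sqF A B C E f else 0) := by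
    intro f _
    have n0 : 0 ≤ ∑ v ∈ cnr f, |lap Hs v| := sum_nonneg fun _ _ => abs_nonneg _
    have n1 : 0 ≤ ∑ v ∈ cnr f, w v := sum_nonneg fun _ _ => w0 _
    have n2 : 0 ≤ (if f ∈ R \ G then sqF A B C E f else 0) := by
      split_ifs
      · exact sqF_nonneg _ _ _ _ _
      · exact le_rfl
    simp only [hu]
    rw [sum_add_distrib, ← mul_sum, ← mul_sum]
    refine max_le (by positivity) ?_
    by_cases hR : f ∈ R
    · have b1 := lapf_R h hH hE hR
      by_cases hG : f ∈ G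
      · linarith [sqF_G h hH hE hG]
      · rw [if_pos (mem_sdiff.2 ⟨hR, hG⟩)]
        linarith
    · by_cases hin : ∀ u ∈ cnr f, u ∈ Λ
      · linarith [lapf_np h hH hE hR hin]
      · push Not at hin
        obtain ⟨y, y1, y2⟩ := hin
        have := hb.lapf_out y1 y2
        simp only [hw] at n1 ⊢
        linarith
  have a2 := sum_le_sum a1
  rw [sum_add_distrib] at a2
  have a4 := sum_sum_cnr u0 (T := box (M + 1)) (S := box (M + 1)) fun v hv => by
    simp only [hu]
    rw [supp_lap s1 v hv, w3 v hv, abs_zero, mul_zero, mul_zero, add_zero]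
  have a5 : ∑ v ∈ box (M + 1), u v ≤ 94 * ∑ p ∈ Q, sqS A B C E p := by
    simp only [hu]
    rw [sum_add_distrib, ← mul_sum, ← mul_sum]
    linarith [k2 (box (M + 1))]
  linarith [ite_le (box (M + 1)) (R \ G) _ (sqF_nonneg A B C E)]

end

end Vale.Agent.P144Y.R
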