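import Vale.Agent.P144Y.Defs
import Vale.Agent.P144T.BPath2

/-!
Moving one disorder; the other disorders may lie outside the domain.
-/

namespace Vale.Agent.P144Y.R

open Finset Vale.Agent.P144 Filter Topology MeasureTheory
open Vale.Agent.P144.H436 (rs rf rs_rs rc rc_rc Tc fam QQ_pos log_lim near_lim Tc_fl stp cx Tc_stp
  floor_diff ball_of_sq)
open Vale.Agent.P144T.B (FD rat rat_pos rat_mul rat_zero rat_neg rat_rf norm_rc appr_rs lr lr_int
  lr_meas qr Rl)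

/-- Distinct points of the domain. -/
structure Cf (D : Set ℂ) {n : ℕ} (ρ : Fin n → ℂ) (ζ : ℂ) : Prop where
  rD : ∀ p, ρ p ∈ Pm D
  inj : Function.Injective ρ
  zD : ζ ∈ D
  ne : ∀ p, ρ p ≠ ζ

variable {D : Set ℂ}

/-- The logarithmic gradients of the disorder correlations converge. -/
def T5 (D : Set ℂ) (n : ℕ) (d : Site) : Prop := ∀ (ρ : Fin n → ℂ) (ζ : ℂ), Cf D ρ ζ → ∃ c : ℝ,
  ∀ (α : Type) (U : Ultrafilter α) (a : α → ℝ) (N : α → Finset Site) (r : α → Fin n → Site) (v : α → Site),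
    FD D (U : Filter α) a N r v ρ ζ →
      Tendsto (fun x => (a x)⁻¹ * (rat (N x) (r x) (v x) d - 1)) U (𝓝 c)

/-- The ratios tend to one. -/
def T0 (D : Set ℂ) (n : ℕ) (d : Site) : Prop := ∀ (ρ : Fin n → ℂ) (ζ : ℂ), Cf D ρ ζ →
  ∀ (α : Type) (U : Ultrafilter α) (a : α → ℝ) (N : α → Finset Site) (r : α → Fin n → Site) (v : α → Site),
    FD D (U : Filter α) a N r v ρ ζ → Tendsto (fun x => rat (N x) (r x) (v x) d) U (𝓝 1)

theorem pm_rc {z : ℂ} (hz : z ∈ Pm D) : rc z ∈ Pm (rc '' D) := by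
  rcases hz with h | ⟨h1, h2⟩
  · exact Or.inl ⟨z, h, rfl⟩
  · refine Or.inr ⟨?_, fun h => h2 ?_⟩
    · have := norm_rc z 0
      have e : rc 0 = 0 := by apply Complex.ext <;> simp [rc]
      rw [e, sub_zero, sub_zero] at this
      rwa [this]
    · rw [Metric.mem_closure_iff] at h ⊢
      intro ε hε
      obtain ⟨_, ⟨w, hw, rfl⟩, h3⟩ := h ε hε
      exact ⟨w, hw, by rwa [dist_eq_norm, norm_rc, ← dist_eq_norm] at h3⟩

theorem T5.t0 {n : ℕ} {d : Site} (h : T5 D n d) : T0 D n d := by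
  intro ρ ζ hc α U a N r v hf
  obtain ⟨c, hc'⟩ := h ρ ζ hc
  have h1 := hc' α U a N r v hf
  have h0 : Tendsto a U (𝓝 0) := hf.a0.mono_right nhdsWithin_le_nhds
  have hpos : ∀ᶠ x in (U : Filter α), 0 < a x := hf.a0.eventually self_mem_nhdsWithin
  have h2 := (h0.mul h1).add_const 1
  rw [zero_mul, zero_add] at h2
  refine h2.congr' (hpos.mono fun x hx => ?_)
  rw [← mul_assoc, mul_inv_cancel₀ hx.ne', one_mul, sub_add_cancel]

theorem T0.add {n : ℕ} {d d' : Site} (h : T0 D n d) (h' : T0 D n d') : T0 D n (d + d') := by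
  intro ρ ζ hc α U a N r v hf
  have h1 := h ρ ζ hc α U a N r v hf
  have h2 := h' ρ ζ hc α U a N r _ (hf.shift d)
  have := h1.mul h2
  rw [one_mul] at this
  exact this.congr fun x => rat_mul _ _ _ _ _

theorem T0.neg {n : ℕ} {d : Site} (h : T0 D n d) : T0 D n (-d) := by
  intro ρ ζ hc α U a N r v hf
  have h2 := h ρ ζ hc α U a N r _ (hf.shift (-d))
  have := h2.inv₀ one_ne_zero
  rw [inv_one] at this
  exact this.congr fun x => (rat_neg _ _ _ _).symm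

theorem T0.zero (n : ℕ) : T0 D n 0 := by
  intro ρ ζ hc α U a N r v hf
  simp only [rat_zero]
  exact tendsto_const_nhds

theorem T5.neg {n : ℕ} {d : Site} (h : T5 D n d) : T5 D n (-d) := by
  intro ρ ζ hc
  obtain ⟨c, hc'⟩ := h ρ ζ hc
  refine ⟨-c, fun α U a N r v hf => ?_⟩
  have h1 := hc' α U a N r _ (hf.shift (-d))
  have h2 := h.t0 ρ ζ hc α U a N r _ (hf.shift (-d))
  have h3 := (h1.mul (h2.inv₀ one_ne_zero)).neg
  rw [inv_one, mul_one] at h3
  refine h3.congr fun x => ?_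
  rw [rat_neg]
  have := (rat_pos (N x) (r x) (v x + -d) d).ne'
  field_simp
  ring

theorem T5.refl {n : ℕ} {d : Site} (h : T5 (rc '' D) n d) : T5 D n (rs d) := by
  intro ρ ζ hc
  have hc2 : Cf (rc '' D) (fun p => rc (ρ p)) (rc ζ) := ⟨fun p => pm_rc (hc.rD p),
    fun p q h => hc.inj (by rw [← rc_rc (ρ p), h, rc_rc]), ⟨_, hc.zD, rfl⟩,
    fun p h => hc.ne p (by rw [← rc_rc (ρ p), h, rc_rc])⟩
  obtain ⟨c, hc'⟩ := h _ _ hc2
  refine ⟨c, fun α U a N r v hf => ?_⟩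
  have h1 := hc' α U a (fun x => (N x).image rs) (fun x p => rf (r x p)) (fun x => rf (v x))
    ⟨hf.a0, appr_rs hf.aN, fun p => (hf.r p).refl hf.a0, hf.v.refl hf.a0⟩
  refine h1.congr fun x => ?_
  have := rat_rf (N x) (r x) (v x) (rs d)
  rw [rs_rs] at this
  rw [this]

/-- All finite displacements. -/
theorem T0_all {n : ℕ} (h5 : T5 D n (-1, -1)) (h0 : T0 D n (1, 0)) (d : Site) : T0 D n d := by
  have h1 : T0 D n (1, 1) := by
    have := h5.t0.neg
    simpa using this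
  have h2 : T0 D n (0, 1) := by
    have := h1.add h0.neg
    simpa using this
  have hn : ∀ (e : Site), T0 D n e → ∀ k : ℕ, T0 D n (k • e) := by
    intro e he k
    induction k with
    | zero => rw [zero_smul]; exact T0.zero n
    | succ k ih => rw [succ_nsmul]; exact ih.add he
  have hz : ∀ (e : Site), T0 D n e → ∀ k : ℤ, T0 D n (k • e) := by
    intro e he k
    obtain ⟨m, rfl | rfl⟩ := k.eq_nat_or_neg
    · rw [natCast_zsmul]; exact hn e he m
    · rw [neg_smul, natCast_zsmul]; exact (hn e he m).neg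
  have := (hz _ h0 d.1).add (hz _ h2 d.2)
  have e : d.1 • ((1, 0) : Site) + d.2 • ((0, 1) : Site) = d := by
    refine Prod.ext ?_ ?_ <;> simp
  rwa [e] at this

section seg

variable {Λ : ℝ → Finset Site} {n : ℕ} {ρ : Fin n → ℂ} {z : ℂ} {d : Site}

theorem lr_lim (hL : Fam0 D Λ) (h5 : T5 D n d) {τ₀ : ℝ} (hc : Cf D ρ (z + τ₀ * cx d)) : ∃ c : ℝ,
    ∀ (α : Type) (U : Ultrafilter α) (a τ : α → ℝ), Tendsto a U (𝓝[>] 0) →
      (∀ᶠ x in (U : Filter α), 0 ≤ τ x) → Tendsto τ U (𝓝 τ₀) →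
      Tendsto (fun x => lr Λ ρ z d (a x) (τ x)) U (𝓝 c) := by
  obtain ⟨c, hc'⟩ := h5 _ _ hc
  refine ⟨c, fun α U a τ ha h0 hτ => ?_⟩
  have hf : FD D (U : Filter α) a (fun x => Λ (a x)) (fun x p => fl (a x) (ρ p))
      (fun x => fl (a x) z + (stp (a x) (τ x)) • d) ρ (z + τ₀ * cx d) :=
    ⟨ha, hL.comp ha, fun p => Tc_fl ha _, Tc_stp z d ha τ τ₀ h0 hτ⟩
  exact log_lim (ha.eventually self_mem_nhdsWithin) (fun x => rat_pos _ _ _ _)
    (hc' α U a _ _ _ hf) (h5.t0 _ _ hc α U a _ _ _ hf)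

/-- The logarithmic ratios are bounded along a segment. -/
theorem lr_bdd (hL : Fam0 D Λ) (h5 : T5 D n d) {s : ℝ} (hs : ∀ τ ∈ Set.Icc 0 s, Cf D ρ (z + τ * cx d)) :
    ∃ B : ℝ, ∀ᶠ a in 𝓝[>] (0:ℝ), ∀ τ ∈ Set.Icc 0 s, |lr Λ ρ z d a τ| ≤ B := by
  by_contra hcon
  push Not at hcon
  have key : ∀ k : ℕ, ∃ a τ : ℝ, 0 < a ∧ a < 1 / ((k : ℝ) + 1) ∧ τ ∈ Set.Icc 0 s ∧
      (k : ℝ) < |lr Λ ρ z d a τ| := by
    intro k
    have hk : (0:ℝ) < 1 / ((k : ℝ) + 1) := by positivity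
    have h1 : ∀ᶠ a in 𝓝[>] (0:ℝ), a ∈ Set.Ioo (0:ℝ) (1 / ((k : ℝ) + 1)) := Ioo_mem_nhdsGT hk
    obtain ⟨a, ⟨τ, hτ, hB⟩, ha⟩ := ((hcon k).and_eventually h1).exists
    exact ⟨a, τ, ha.1, ha.2, hτ, hB⟩
  choose a τ ha0 ha1 hτ hB using key
  let U : Ultrafilter ℕ := hyperfilter ℕ
  have hU : (U : Filter ℕ) ≤ atTop := Nat.hyperfilter_le_atTop
  have hat : Tendsto a atTop (𝓝[>] 0) := by
    rw [tendsto_nhdsWithin_iff]
    exact ⟨squeeze_zero (fun k => (ha0 k).le) (fun k => (ha1 k).le)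
      tendsto_one_div_add_atTop_nhds_zero_nat, Eventually.of_forall fun k => ha0 k⟩
  obtain ⟨τ₀, hτ₀, hlim⟩ := isCompact_Icc.ultrafilter_le_nhds (U.map τ) (by
    rw [Filter.le_principal_iff]
    exact Filter.Eventually.of_forall (f := (U : Filter ℕ)) fun k => hτ k)
  have hτt : Tendsto τ U (𝓝 τ₀) := hlim
  obtain ⟨c, hc⟩ := lr_lim hL h5 (hs τ₀ hτ₀)
  have h1 := hc ℕ U a τ (hat.mono_left hU) (Eventually.of_forall fun k => (hτ k).1) hτt
  have h2 : ∀ᶠ k in (U : Filter ℕ), |lr Λ ρ z d (a k) (τ k)| < |c| + 1 :=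
    (h1.abs).eventually_lt_const (lt_add_one _)
  have h3 : ∀ᶠ k : ℕ in (U : Filter ℕ), |c| + 1 < (k : ℝ) :=
    hU (tendsto_natCast_atTop_atTop.eventually_gt_atTop (|c| + 1))
  obtain ⟨k, h4, h5⟩ := (h2.and h3).exists
  have := hB k
  linarith

/-- Moving along a segment. -/
theorem seg_lim (hL : Fam0 D Λ) (h5 : T5 D n d) {s : ℝ} (hs0 : 0 ≤ s)
    (hs : ∀ τ ∈ Set.Icc 0 s, Cf D ρ (z + τ * cx d)) :
    ∃ L : ℝ, Tendsto (fun a : ℝ =>
      AL.QQ (Λ a) ((fl a z + ⌊s / a⌋₊ • d) ::ₘ fam fun p => fl a (ρ p)) 0 /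
      AL.QQ (Λ a) (fl a z ::ₘ fam fun p => fl a (ρ p)) 0) (𝓝[>] 0) (𝓝 (Real.exp L)) := by
  obtain ⟨B, hB⟩ := lr_bdd hL h5 hs
  have hex : ∀ τ : ℝ, ∃ c : ℝ, τ ∈ Set.Icc 0 s →
      ∀ (α : Type) (U : Ultrafilter α) (a τ' : α → ℝ), Tendsto a U (𝓝[>] 0) →
      (∀ᶠ x in (U : Filter α), 0 ≤ τ' x) → Tendsto τ' U (𝓝 τ) →
      Tendsto (fun x => lr Λ ρ z d (a x) (τ' x)) U (𝓝 c) := by
    intro τ
    by_cases h : τ ∈ Set.Icc 0 s
    · obtain ⟨c, hc⟩ := lr_lim hL h5 (hs τ h)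
      exact ⟨c, fun _ => hc⟩
    · exact ⟨0, fun h' => absurd h' h⟩
  choose c hc using hex
  have hpt : ∀ τ ∈ Set.Icc 0 s, Tendsto (fun a => lr Λ ρ z d a τ) (𝓝[>] 0) (𝓝 (c τ)) := by
    intro τ hτ
    rw [tendsto_iff_ultrafilter]
    intro U hU
    exact hc τ hτ ℝ U id (fun _ => τ) hU (Eventually.of_forall fun _ => hτ.1) tendsto_const_nhds
  have h1 : Tendsto (fun a => ∫ τ in (0:ℝ)..s, lr Λ ρ z d a τ) (𝓝[>] 0)
      (𝓝 (∫ τ in (0:ℝ)..s, c τ)) := by
    refine intervalIntegral.tendsto_integral_filter_of_dominated_convergence (fun _ => B) ?_ ?_ ?_ ?_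
    · exact Eventually.of_forall fun a => (lr_meas a).aestronglyMeasurable
    · filter_upwards [hB] with a ha
      refine Eventually.of_forall fun τ hτ => ?_
      rw [Set.uIoc_of_le hs0] at hτ
      exact ha τ ⟨hτ.1.le, hτ.2⟩
    · exact intervalIntegrable_const
    · refine Eventually.of_forall fun τ hτ => ?_
      rw [Set.uIoc_of_le hs0] at hτ
      exact hpt τ ⟨hτ.1.le, hτ.2⟩
  have hpos : ∀ᶠ a in 𝓝[>] (0:ℝ), 0 < a := self_mem_nhdsWithin
  have h2 : Tendsto (fun a => (∫ τ in (0:ℝ)..s, lr Λ ρ z d a τ) -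
      ∫ τ in (0:ℝ)..(⌊s / a⌋₊ * a), lr Λ ρ z d a τ) (𝓝[>] 0) (𝓝 0) := by
    have h3 : Tendsto (fun a : ℝ => |B| * a) (𝓝[>] 0) (𝓝 0) := by
      have : Tendsto (fun a : ℝ => |B| * a) (𝓝 0) (𝓝 (|B| * 0)) := tendsto_id.const_mul _
      rw [mul_zero] at this
      exact this.mono_left nhdsWithin_le_nhds
    refine squeeze_zero_norm' ?_ h3
    filter_upwards [hpos, hB] with a ha hBa
    have e1 : (⌊s / a⌋₊ : ℝ) * a ≤ s := by
      have := Nat.floor_le (div_nonneg hs0 ha.le)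
      rwa [le_div_iff₀ ha] at this
    have e2 : s ≤ (⌊s / a⌋₊ : ℝ) * a + a := by
      have := (Nat.lt_floor_add_one (s / a)).le
      rw [div_le_iff₀ ha] at this
      linarith
    have e3 : 0 ≤ (⌊s / a⌋₊ : ℝ) * a := by positivity
    have hii : ∀ x y : ℝ, x ∈ Set.Icc 0 s → y ∈ Set.Icc 0 s →
        IntervalIntegrable (lr Λ ρ z d a) volume x y := by
      intro x y hx hy
      refine (intervalIntegrable_const (c := B)).mono_fun (lr_meas a).aestronglyMeasurable ?_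
      rw [Filter.EventuallyLE, ae_restrict_iff' measurableSet_uIoc]
      refine Eventually.of_forall fun τ hτ => ?_
      have hτ' : τ ∈ Set.Icc 0 s := by
        rcases le_total x y with h | h
        · rw [Set.uIoc_of_le h] at hτ
          exact ⟨hx.1.trans hτ.1.le, hτ.2.trans hy.2⟩
        · rw [Set.uIoc_of_ge h] at hτ
          exact ⟨hy.1.trans hτ.1.le, hτ.2.trans hx.2⟩
      rw [Real.norm_eq_abs, Real.norm_eq_abs]
      exact (hBa τ hτ').trans (le_abs_self B)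
    have m0 : (0:ℝ) ∈ Set.Icc 0 s := ⟨le_rfl, hs0⟩
    have m1 : (⌊s / a⌋₊ : ℝ) * a ∈ Set.Icc 0 s := ⟨e3, e1⟩
    have m2 : s ∈ Set.Icc 0 s := ⟨hs0, le_rfl⟩
    rw [intervalIntegral.integral_interval_sub_left (hii 0 s m0 m2) (hii 0 _ m0 m1)]
    refine (intervalIntegral.norm_integral_le_of_norm_le_const (C := |B|) fun τ hτ => ?_).trans ?_
    · rw [Set.uIoc_of_le e1] at hτ
      exact (hBa τ ⟨e3.trans hτ.1.le, hτ.2⟩).trans (le_abs_self B)
    · refine mul_le_mul_of_nonneg_left ?_ (abs_nonneg B)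
      rw [abs_of_nonneg (by linarith)]
      linarith
  have h3 := h1.sub h2
  rw [sub_zero] at h3
  refine ⟨_, ((Real.continuous_exp.tendsto _).comp h3).congr' ?_⟩
  filter_upwards [hpos] with a ha
  simp only [Function.comp]
  rw [sub_sub_cancel, ← lr_int ha, Real.exp_log (div_pos (QQ_pos _ _) (QQ_pos _ _))]

end seg

section rel

variable {Λ : ℝ → Finset Site} {n : ℕ} {ρ : Fin n → ℂ}

/-- Moving along a segment. -/
theorem seg_rel (hΛ : Fam0 D Λ) (h0 : ∀ e, T0 D n e) {d : Site} (h5 : T5 D n d) {z : ℂ} {s : ℝ} (hs0 : 0 ≤ s)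
    (hs : ∀ τ ∈ Set.Icc 0 s, Cf D ρ (z + τ * cx d)) : Rl Λ ρ z (z + s * cx d) := by
  obtain ⟨L, hL⟩ := seg_lim hΛ h5 hs0 hs
  refine ⟨Real.exp L, Real.exp_pos _, ?_⟩
  have hend : Cf D ρ (z + s * cx d) := hs s ⟨hs0, le_rfl⟩
  set w : ℂ := z + s * cx d with hw
  have hfl : ∀ a : ℝ, 0 < a → |((⌊s / a⌋₊ : ℕ) : ℝ) - s / a| ≤ 1 := by
    intro a ha
    have h1 := Nat.floor_le (div_nonneg hs0 ha.le)
    have h2 := Nat.lt_floor_add_one (s / a)
    rw [abs_le]; constructor <;> linarith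
  have h1 : Tendsto (fun a : ℝ =>
      AL.QQ (Λ a) (fl a w ::ₘ fam fun p => fl a (ρ p)) 0 /
      AL.QQ (Λ a) ((fl a z + ⌊s / a⌋₊ • d) ::ₘ fam fun p => fl a (ρ p)) 0)
      (𝓝[>] 0) (𝓝 1) := by
    rw [tendsto_iff_ultrafilter]
    intro U hU
    have hpos : ∀ᶠ a in (U : Filter ℝ), 0 < a := hU self_mem_nhdsWithin
    have hfin : (Set.Icc (-(|d.1| + 2), -(|d.2| + 2)) (|d.1| + 2, |d.2| + 2) : Set Site).Finite :=
      Set.finite_Icc _ _
    have hev : ∀ᶠ a in (U : Filter ℝ),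
        ∃ e ∈ (Set.Icc (-(|d.1| + 2), -(|d.2| + 2)) (|d.1| + 2, |d.2| + 2) : Set Site),
          fl a w = (fl a z + ⌊s / a⌋₊ • d) + e := by
      filter_upwards [hpos] with a ha
      refine ⟨fl a w - (fl a z + ⌊s / a⌋₊ • d), ?_, by abel⟩
      have e1 := floor_diff (z.re / a) (w.re / a) (s / a) ⌊s / a⌋₊ d.1 (hfl a ha) (by
        rw [hw]; simp [cx]; ring)
      have e2 := floor_diff (z.im / a) (w.im / a) (s / a) ⌊s / a⌋₊ d.2 (hfl a ha) (by
        rw [hw]; simp [cx]; ring)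
      rw [abs_le] at e1 e2
      exact ⟨⟨e1.1, e2.1⟩, ⟨e1.2, e2.2⟩⟩
    obtain ⟨e, _, he⟩ := (Ultrafilter.eventually_exists_mem_iff hfin).1 hev
    have ha : Tendsto (fun a : ℝ => a) U (𝓝[>] 0) := hU
    have hs1 : Tendsto (fun a : ℝ => a * ((⌊s / a⌋₊ : ℕ) : ℝ)) U (𝓝 s) :=
      near_lim (B := 1) ha tendsto_const_nhds (hpos.mono fun a h => hfl a h)
    have hz := Tc_fl (l := (U : Filter ℝ)) ha z
    have hf : FD D (U : Filter ℝ) (fun a => a) (fun a => Λ a) (fun a p => fl a (ρ p))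
        (fun a => fl a z + ⌊s / a⌋₊ • d) ρ w := by
      refine ⟨ha, hΛ.comp ha, fun p => Tc_fl ha _, ?_, ?_⟩
      · have := hz.1.add (hs1.mul_const (d.1 : ℝ))
        have e : w.re = z.re + s * (d.1 : ℝ) := by rw [hw]; simp [cx]
        rw [e]
        refine this.congr fun x => ?_
        simp; ring
      · have := hz.2.add (hs1.mul_const (d.2 : ℝ))
        have e : w.im = z.im + s * (d.2 : ℝ) := by rw [hw]; simp [cx]
        rw [e]
        refine this.congr fun x => ?_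
        simp; ring
    have h2 := h0 e ρ w hend ℝ U _ _ _ _ hf
    refine h2.congr' (he.mono fun a h => ?_)
    unfold rat
    rw [← h]
  have h2 := h1.mul hL
  rw [one_mul] at h2
  refine h2.congr fun a => ?_
  unfold qr
  have h3 := (QQ_pos (Λ a) ((fl a z + ⌊s / a⌋₊ • d) ::ₘ fam fun p => fl a (ρ p))).ne'
  have h4 := (QQ_pos (Λ a) (fl a z ::ₘ fam fun p => fl a (ρ p))).ne'
  field_simp

/-- Nearby points are related. -/
theorem loc_rel (hD : IsOpen D) (hL : Fam0 D Λ) (h0 : ∀ e, T0 D n e) (h5 : ∀ d ∈ ({(1, 1), (-1, -1), (-1, 1), (1, -1)} : Set Site),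
    T5 D n d) (hr : ∀ p, ρ p ∈ Pm D) (hi : Function.Injective ρ) {z : ℂ}
    (hz : z ∈ D \ Set.range ρ) : ∀ᶠ w in 𝓝[D \ Set.range ρ] z, Rl Λ ρ z w := by
  have hopen : IsOpen (D \ Set.range ρ) :=
    hD.sdiff (Set.finite_range ρ).isClosed
  obtain ⟨r, hr0, hball⟩ := Metric.isOpen_iff.1 hopen z hz
  refine mem_nhdsWithin_of_mem_nhds (Filter.mem_of_superset (Metric.ball_mem_nhds z hr0) ?_)
  intro w hw
  have hcf : ∀ p ∈ Metric.ball z r, Cf D ρ p := fun p hp =>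
    ⟨hr, hi, (hball hp).1, fun q hq => (hball hp).2 ⟨q, hq⟩⟩
  have hwn : (w - z).re ^ 2 + (w - z).im ^ 2 < r ^ 2 := by
    rw [Metric.mem_ball, dist_eq_norm] at hw
    have := pow_lt_pow_left₀ hw (norm_nonneg _) two_ne_zero
    rw [Complex.sq_norm, Complex.normSq_apply] at this
    nlinarith [this]
  set x := (w - z).re with hx
  set y := (w - z).im with hy
  set α := (x + y) / 2 with hα
  set β := (y - x) / 2 with hβ
  have hsum : 2 * α ^ 2 + 2 * β ^ 2 = x ^ 2 + y ^ 2 := by rw [hα, hβ]; ring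
  have hw' : w = z + α * cx (1, 1) + β * cx (-1, 1) := by
    apply Complex.ext
    · simp only [Complex.add_re, Complex.mul_re, Complex.ofReal_re, Complex.ofReal_im, cx]
      push_cast
      have : w.re = z.re + x := by rw [hx]; simp
      rw [this, hα, hβ]; ring
    · simp only [Complex.add_im, Complex.mul_im, Complex.ofReal_re, Complex.ofReal_im, cx]
      push_cast
      have : w.im = z.im + y := by rw [hy]; simp
      rw [this, hα, hβ]; ring
  have hp : ∀ s t : ℝ, s ^ 2 ≤ α ^ 2 → t ^ 2 ≤ β ^ 2 →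
      Cf D ρ (z + s * cx (1, 1) + t * cx (-1, 1)) := by
    intro s t hs ht
    refine hcf _ (ball_of_sq hr0 ?_)
    have e1 : (z + s * cx (1, 1) + t * cx (-1, 1) - z).re = s - t := by
      simp only [Complex.add_re, Complex.sub_re, Complex.mul_re, Complex.ofReal_re,
        Complex.ofReal_im, cx]
      push_cast; ring
    have e2 : (z + s * cx (1, 1) + t * cx (-1, 1) - z).im = s + t := by
      simp only [Complex.add_im, Complex.sub_im, Complex.mul_im, Complex.ofReal_re,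
        Complex.ofReal_im, cx]
      push_cast; ring
    rw [e1, e2]
    nlinarith
  have hc1 : cx (-1, -1) = -cx (1, 1) := by unfold cx; apply Complex.ext <;> simp
  have hc2 : cx (1, -1) = -cx (-1, 1) := by unfold cx; apply Complex.ext <;> simp
  have r1 : Rl Λ ρ z (z + α * cx (1, 1)) := by
    rcases le_total 0 α with h | h
    · refine seg_rel hL h0 (h5 (1, 1) (by simp)) h fun τ hτ => ?_
      have := hp τ 0 (by nlinarith [hτ.1, hτ.2]) (by nlinarith [sq_nonneg β])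
      simpa using this
    · have h1 := seg_rel (ρ := ρ) (z := z) hL h0 (h5 (-1, -1) (by simp)) (neg_nonneg.2 h)
        fun τ hτ => by
          have := hp (-τ) 0 (by nlinarith [hτ.1, hτ.2]) (by nlinarith [sq_nonneg β])
          rw [hc1]
          simpa using this
      rw [hc1] at h1
      simpa using h1
  have r2 : Rl Λ ρ (z + α * cx (1, 1)) w := by
    rw [hw']
    rcases le_total 0 β with h | h
    · refine seg_rel hL h0 (h5 (-1, 1) (by simp)) h fun τ hτ => ?_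
      exact hp α τ le_rfl (by nlinarith [hτ.1, hτ.2])
    · have h1 := seg_rel (ρ := ρ) (z := z + α * cx (1, 1)) hL h0 (h5 (1, -1) (by simp))
        (neg_nonneg.2 h) fun τ hτ => by
          have := hp α (-τ) le_rfl (by nlinarith [hτ.1, hτ.2])
          rw [hc2]
          simpa using this
      rw [hc2] at h1
      simpa using h1
  exact r1.trans r2

end rel

theorem all_rel {Ω : Dom} {Λ : ℝ → Finset Site} (hL : Fam0 Ω.D Λ) {n : ℕ} {ρ : Fin n → ℂ}
    (h5 : T5 Ω.D n (-1, -1)) (a3 : T5 Ω.D n (1, -1)) (h0 : T0 Ω.D n (1, 0))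
    (hr : ∀ p, ρ p ∈ Pm Ω.D) (hi : Function.Injective ρ) {z w : ℂ} (hz : z ∈ Ω.D \ Set.range ρ)
    (hw : w ∈ Ω.D \ Set.range ρ) : Rl Λ ρ z w := by
  have h0' := T0_all h5 h0
  have a1 : T5 Ω.D n (1, 1) := by simpa using h5.neg
  have a2 : T5 Ω.D n (-1, 1) := by simpa using a3.neg
  have h5' : ∀ d ∈ ({(1, 1), (-1, -1), (-1, 1), (1, -1)} : Set Site), T5 Ω.D n d := by
    intro d hd
    simp only [Set.mem_insert_iff, Set.mem_singleton_iff] at hd
    rcases hd with rfl | rfl | rfl | rfl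
    · exact a1
    · exact h5
    · exact a2
    · exact a3
  exact (Ω.conn _ (Set.finite_range ρ)).induction₂ (Rl Λ ρ)
    (fun x hx => loc_rel Ω.op hL h0' h5' hr hi hx) (fun x y z _ _ _ => P144T.B.Rl.trans)
    (fun x y _ _ => P144T.B.Rl.symm) hz hw

end Vale.Agent.P144Y.R
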