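import Vale.Agent.P144Y.R.Xj

/-!
The ratios of the correlations converge.
-/

namespace Vale.Agent.P144Y.R

open Finset Vale.Agent.P144 Filter Topology
open Vale.Agent.P144.H436 (fam QQ_pos MM_pos)
open Vale.Agent.P144T.B (qr)

theorem enum (Y : Finset ℂ) : ∃ (n : ℕ) (ρ : Fin n → ℂ), Function.Injective ρ ∧
    Set.range ρ = (Y : Set ℂ) ∧ ∀ a : ℝ, fam (fun p => fl a (ρ p)) = Y.val.map (fl a) := by
  let ρ : Fin Y.card → ℂ := fun p => (Y.equivFin.symm p : ℂ)
  have hi : Function.Injective ρ := fun p q h => Y.equivFin.symm.injective (Subtype.ext h)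
  have hr : Set.range ρ = (Y : Set ℂ) := by
    ext x
    constructor
    · rintro ⟨p, rfl⟩
      exact (Y.equivFin.symm p).2
    · intro h
      exact ⟨Y.equivFin ⟨x, h⟩, by simp [ρ]⟩
  refine ⟨_, ρ, hi, hr, fun a => ?_⟩
  have h1 : (univ : Finset (Fin Y.card)).map ⟨ρ, hi⟩ = Y := by
    ext x
    rw [← Finset.mem_coe, ← Finset.mem_coe (s := Y), ← hr]
    simp
  have h2 : univ.val.map ρ = Y.val := congrArg Finset.val h1
  unfold fam
  rw [← h2, Multiset.map_map]
  rfl

/-- The correlation in the model with the vertex sets `Λ`. -/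
noncomputable def Mx (Λ : ℝ → Finset Site) (a : ℝ) (X S : Finset ℂ) : ℝ :=
  H436.MM (Λ a) (fm a X + fm a S)

theorem ratio_of_grad {Ω : Dom} {Λ : ℝ → Finset Site} (hL : Fam0 Ω.D Λ)
    (h5 : ∀ n, T5 Ω.D n (-1, -1)) (h5' : ∀ n, T5 Ω.D n (1, -1)) (h0 : ∀ n, T0 Ω.D n (1, 0))
    (X X' S : Finset ℂ) (hX : ∀ z ∈ X, z ∈ Ω.D) (hX' : ∀ z ∈ X', z ∈ Ω.D)
    (hS : ∀ z ∈ S, z ∈ Ext Ω.D) (hc : X.card = X'.card) :
    ∃ q > 0, Tendsto (fun a => Mx Λ a X S / Mx Λ a X' S) (𝓝[>] 0) (𝓝 q) := by
  classical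
  have key : ∀ (k : ℕ) (X : Finset ℂ), (∀ z ∈ X, z ∈ Ω.D) → X.card = X'.card →
      (X' \ X).card = k →
      ∃ q > 0, Tendsto (fun a => Mx Λ a X S / Mx Λ a X' S) (𝓝[>] 0) (𝓝 q) := by
    intro k
    induction k with
    | zero =>
      intro X _ hc hk
      have h1 : X' ⊆ X := by
        rw [← sdiff_eq_empty_iff_subset]; exact card_eq_zero.1 hk
      have h2 : X' = X := eq_of_subset_of_card_le h1 hc.le
      subst h2
      refine ⟨1, one_pos, ?_⟩
      have : (fun a => Mx Λ a X' S / Mx Λ a X' S) = fun _ => 1 := by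
        funext a; exact div_self (MM_pos (Λ a) (fm a X' + fm a S)).ne'
      rw [this]
      exact tendsto_const_nhds
    | succ k ih =>
      intro X hX hc hk
      obtain ⟨w, hw⟩ : (X' \ X).Nonempty := card_pos.1 (by omega)
      rw [Finset.mem_sdiff] at hw
      have hk2 : (X \ X').card = k + 1 := by
        rw [← hk]
        exact card_sdiff_comm hc
      obtain ⟨z, hz⟩ : (X \ X').Nonempty := card_pos.1 (by omega)
      rw [Finset.mem_sdiff] at hz
      set Y := X.erase z with hY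
      have hzY : z ∉ Y := notMem_erase z X
      have hXY : X = insert z Y := (insert_erase hz.1).symm
      have hwY : w ∉ Y := fun h => hw.2 (erase_subset _ _ h)
      have hYc : Y.card + 1 = X.card := by rw [hXY, card_insert_of_notMem hzY]
      obtain ⟨n, ρ, hi, hrange, hfam⟩ := enum (Y ∪ S)
      have hS' : ∀ x ∈ Ω.D, x ∉ S := fun x hx h => (hS x h).2 (subset_closure hx)
      have hYD : ∀ x ∈ Y, x ∈ Ω.D := fun x hx => hX x (erase_subset _ _ hx)
      have hd : Disjoint Y S := disjoint_left.2 fun x hx => hS' x (hYD x hx)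
      have hn : ∀ x ∈ Ω.D, x ∉ Y → x ∈ Ω.D \ Set.range ρ := fun x h1 h2 => ⟨h1, by
        rw [hrange, Finset.mem_coe, mem_union]; exact fun h => h.elim h2 (hS' x h1)⟩
      obtain ⟨q, hq, hlim⟩ := all_rel hL (ρ := ρ) (z := w) (w := z) (h5 _) (h5' _) (h0 _)
        (fun p => by
          have : ρ p ∈ ((Y ∪ S : Finset ℂ) : Set ℂ) := hrange ▸ Set.mem_range_self p
          rw [Finset.mem_coe, mem_union] at this
          exact this.imp (hYD _) (hS _)) hi (hn w (hX' w hw.1) hwY) (hn z (hX z hz.1) hzY)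
      obtain ⟨q', hq', hlim'⟩ := ih (insert w Y) (fun x hx => by
        rcases mem_insert.1 hx with rfl | h
        · exact hX' _ hw.1
        · exact hYD x h) (by rw [card_insert_of_notMem hwY, hYc, hc]) (by
          have h1 : X' \ insert w Y = (X' \ X).erase w := by
            ext x
            simp only [Finset.mem_sdiff, mem_insert, mem_erase, hXY, not_or]
            constructor
            · rintro ⟨h1, h2, h3⟩
              refine ⟨h2, h1, ?_, h3⟩
              rintro rfl; exact hz.2 h1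
            · rintro ⟨h1, h2, h3, h4⟩
              exact ⟨h2, h1, h4⟩
          rw [h1, card_erase_of_mem (Finset.mem_sdiff.2 hw), hk]
          rfl)
      refine ⟨q * q', mul_pos hq hq', (hlim.mul hlim').congr' ?_⟩
      have hpos : ∀ᶠ a in 𝓝[>] (0:ℝ), 0 < a := self_mem_nhdsWithin
      filter_upwards [hpos] with a ha
      have e1 : ∀ v, v ∉ Y → Mx Λ a (insert v Y) S =
          AL.QQ (Λ a) (fl a v ::ₘ fam fun p => fl a (ρ p)) 0 / AL.QQ (Λ a) 0 0 := by
        intro v hv
        unfold Mx fm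
        rw [hfam, Finset.insert_val_of_notMem hv, Multiset.map_cons, Multiset.cons_add,
          ← disjUnion_eq_union _ _ hd, ← Multiset.map_add]
        rfl
      rw [hXY, e1 z hzY, e1 w hwY]
      unfold qr
      have h1 := (QQ_pos (Λ a) 0).ne'
      have h2 := (QQ_pos (Λ a) (fl a w ::ₘ fam fun p => fl a (ρ p))).ne'
      have h3 : Mx Λ a X' S ≠ 0 := (MM_pos (Λ a) (fm a X' + fm a S)).ne'
      field_simp
  exact key _ X hX hc rfl

/-- **Convergence of the ratios.** -/
theorem rat (hM : SMM) : SRat := by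
  intro Ω Ω' hD P hP X X' S hX hX' hS hc
  have h5' : ∀ n, T5 Ω.D n (1, -1) := fun n => by
    have h1 := t5 Ω' n
    rw [hD] at h1
    have h2 := h1.refl
    have e : P144.H436.rs (-1, -1) = (1, -1) := by unfold P144.H436.rs; ext <;> simp
    rwa [e] at h2
  simp only [hM.blk _ _ (hP.2.1 _)]
  exact ratio_of_grad hP.2.2 (t5 Ω) h5' (fun n => t0 n (h5' n)) X X' S hX hX' hS hc

end Vale.Agent.P144Y.R
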